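import Vale.Agent.P224.R2.H424.Tls5
import Vale.Agent.P224.R2.H484.AbsD

/-!
The relative tail for the thresholds `17 (1 - T^10)` on `(0, 1/2]` and `max 35/2 (23/2/(1-T^2))`
on `(1/2, 1)`, dimensions 17 to 36.
-/

namespace Vale.Agent.P224.R2.H424.Tls

open MeasureTheory Set Filter Function Real Module Vale.Agent.P224 Vale.Agent.P224.SM2
  Vale.Agent.P224.R2.H820 Vale.Agent.P224.R2.H869 Vale.Agent.P224.R2.H582
  Vale.Agent.P224.R2.H484 Vale.Agent.P224.R2.H627
open scoped RealInnerProductSpace

set_option linter.unusedSectionVars false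

/-- the parameters: `j` and bounds of the moment constants -/
def parD : List (ℕ × ℚ × ℚ × ℚ) := [
  (40, 13269 / 125000000000, 898723 / 10000000000000, 190877 / 2500000000000),
  (40, 114721 / 2000000000000, 481397 / 10000000000000, 405459 / 10000000000000),
  (40, 12657 / 400000000000, 3291 / 125000000000, 109939 / 5000000000000),
  (40, 177933 / 10000000000000, 146799 / 10000000000000, 121581 / 10000000000000),
  (40, 50929 / 5000000000000, 833373 / 100000000000000, 342289 / 50000000000000),
  (36, 143003 / 10000000000000, 56967 / 5000000000000, 912193 / 100000000000000),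
  (31, 38671 / 1250000000000, 118691 / 5000000000000, 18331 / 1000000000000),
  (27, 129149 / 2000000000000, 14891 / 312500000000, 177237 / 5000000000000),
  (24, 11921 / 100000000000, 847249 / 10000000000000, 608091 / 10000000000000),
  (22, 176861 / 1000000000000, 3043 / 25000000000, 847249 / 10000000000000),
  (20, 36263 / 125000000000, 96307 / 500000000000, 64791 / 500000000000),
  (19, 169099 / 500000000000, 218999 / 1000000000000, 28773 / 200000000000),
  (18, 412349 / 1000000000000, 130039 / 500000000000, 16663 / 100000000000),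
  (17, 131561 / 250000000000, 1261 / 3906250000, 50363 / 250000000000),
  (16, 351843 / 500000000000, 209573 / 500000000000, 254397 / 1000000000000),
  (15, 987167 / 1000000000000, 284949 / 500000000000, 41983 / 125000000000),
  (14, 145511 / 100000000000, 203121 / 250000000000, 58011 / 125000000000),
  (14, 121649 / 100000000000, 134411 / 200000000000, 189949 / 500000000000),
  (13, 5989 / 3125000000, 1277 / 1250000000, 279269 / 500000000000),
  (13, 163329 / 100000000000, 172323 / 200000000000, 466289 / 1000000000000)]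

/-- the relative tail -/
def relD : ℕ → ℚ
  | 17 => 123 / 10000000000
  | 18 => 421 / 5000000000
  | 19 => 211 / 500000000
  | 20 => 191 / 100000000
  | 21 => 79 / 10000000
  | 22 => 293 / 10000000
  | 23 => 831 / 10000000
  | 24 => 97 / 500000
  | 25 => 391 / 1000000
  | 26 => 71 / 100000
  | 27 => 3 / 2500
  | 28 => 47 / 25000
  | 29 => 141 / 50000
  | 30 => 81 / 20000
  | 31 => 561 / 100000
  | 32 => 189 / 25000
  | 33 => 199 / 20000
  | 34 => 129 / 10000
  | 35 => 81 / 5000
  | 36 => 101 / 5000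
  | _ => 0

/-- the check of a row -/
def rowD (i : ℕ) : Bool :=
  let r := parD.getD i (0, 0, 0, 0)
  relOKg 200 tR kR wR lcD (fun c => tR (c + 1)) (17 + i) r.1 1 r.2.1 r.2.2.1 r.2.2.2 (relD (17 + i))

theorem okD : (List.range 20).all rowD = true := by decide +kernel

variable {X : Type*} [MeasurableSpace X] {E : Type*} [NormedAddCommGroup E]
  [InnerProductSpace ℝ E] [MeasurableSpace E] [BorelSpace E] [SecondCountableTopology E]
  {μ : Measure X} [IsFiniteMeasure μ] {m q : ℕ} {p n z : X → E}

/-- the relative tail for these thresholds -/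
theorem rel_D [Nontrivial E] (hm : 17 ≤ m) (hm' : m ≤ 36) (h2 : Two μ m p n)
    (h1 : MinRow μ m p n) {C0 : ℝ} (hz : Measurable z) (hzC : ∀ x, ‖z x‖ ≤ C0)
    (hzp : ∀ x y, ⟪n x, p y⟫ - ⟪p x, n y⟫ = ⟪z x, p y⟫ - ⟪p x, z y⟫)
    {l : ℝ → ℝ} (l1 : ∀ T ∈ Ioo (0 : ℝ) 1, T ≤ 1 / 2 → 17 * (1 - T ^ 10) ≤ l T)
    (l2 : ∀ T ∈ Ioo (0 : ℝ) 1, 1 / 2 < T → 35 / 2 ≤ l T ∧ 23 / 2 / (1 - T ^ 2) ≤ l T) :
    Tail μ m p n l (relD m * ((∫ x, ‖z x‖ ^ 2 ∂μ) / μ.real univ)) := by
  obtain ⟨i, rfl⟩ : ∃ i, m = 17 + i := ⟨m - 17, by omega⟩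
  have hok := okD
  rw [List.all_eq_true] at hok
  exact rel_grd grdR (hok i (List.mem_range.2 (by omega))) hm h2 h1 hz hzC hzp
    (rad_le hz hzC h2.np h2.mp)
    fun c hc T hT t1 t2 => lcD_le hc l1 l2 hT t1 t2

end Vale.Agent.P224.R2.H424.Tls
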